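import Mathlib

namespace Vale.Agent.Lib.P227

variable {E : Type*} [NormedAddCommGroup E] [InnerProductSpace ℝ E]

/-- The support function of a set `K`: `h_K(u) = sup { <x, u> : x in K }`. -/
noncomputable def supportFn (K : Set E) (u : E) : ℝ :=
  sSup ((fun x : E => inner ℝ x u) '' K)

/-- The Wulff body of a function `f`: the intersection over all unit vectors `u`
of the half-spaces `{ x : <x, u> <= f u }`. -/
def wulff (f : E → ℝ) : Set E :=
  {x : E | ∀ u : E, ‖u‖ = 1 → inner ℝ x u ≤ f u}

/-- The logarithmic combination `(1 - lam) K +_0 lam L`, i.e. the Wulff body of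
`h_K ^ (1 - lam) * h_L ^ lam`. -/
noncomputable def logSum (lam : ℝ) (K L : Set E) : Set E :=
  wulff (fun u : E => supportFn K u ^ (1 - lam) * supportFn L u ^ lam)

end Vale.Agent.Lib.P227
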