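import Mathlib
import Vale.Agent.Lib.P227.Defs

namespace Vale.Agent.Lib.P227

open MeasureTheory Set
open scoped Pointwise ENNReal Topology

/-! ### A monotone additive function on the nonnegative reals is linear -/

theorem additive_mono_linear (g : ℝ → ℝ)
    (hadd : ∀ s t : ℝ, 0 ≤ s → 0 ≤ t → g (s + t) = g s + g t)
    (hmono : ∀ s t : ℝ, 0 ≤ s → s ≤ t → g s ≤ g t) (t : ℝ) (ht : 0 ≤ t) :
    g t = t * g 1 := by
  have h0 : g 0 = 0 := by
    have := hadd 0 0 le_rfl le_rfl
    simp at this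
    linarith
  have hnat : ∀ (n : ℕ) (s : ℝ), 0 ≤ s → g (n * s) = n * g s := by
    intro n s hs
    induction n with
    | zero => simp [h0]
    | succ k ih =>
      have e : ((k + 1 : ℕ) : ℝ) * s = k * s + s := by push_cast; ring
      rw [e, hadd _ _ (by positivity) hs, ih]; push_cast; ring
  have hg1 : 0 ≤ g 1 := by
    have := hmono 0 1 le_rfl zero_le_one
    linarith
  have key : ∀ n : ℕ, 0 < n → |g t - t * g 1| ≤ g 1 / n := by
    intro n hn
    have hnpos : (0 : ℝ) < n := by exact_mod_cast hn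
    have hk1 : (⌊(n : ℝ) * t⌋₊ : ℝ) ≤ n * t := Nat.floor_le (by positivity)
    have hk2 : (n : ℝ) * t < ⌊(n : ℝ) * t⌋₊ + 1 := Nat.lt_floor_add_one _
    generalize ⌊(n : ℝ) * t⌋₊ = k at hk1 hk2
    have e1 : g (k : ℝ) = k * g 1 := by simpa using hnat k 1 zero_le_one
    have e2 : g ((k : ℝ) + 1) = (k + 1) * g 1 := by
      have := hnat (k + 1) 1 zero_le_one
      push_cast at this
      simpa using this
    have e3 : g (n * t) = n * g t := hnat n t ht
    have l1 : g (k : ℝ) ≤ g (n * t) := hmono _ _ (by positivity) hk1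
    have l2 : g (n * t) ≤ g ((k : ℝ) + 1) := hmono _ _ (by positivity) hk2.le
    rw [e1, e3] at l1
    rw [e2, e3] at l2
    have hdiv : g 1 / n * n = g 1 := by field_simp
    rw [abs_le]
    constructor
    · have : (n : ℝ) * (-(g 1 / n)) ≤ n * (g t - t * g 1) := by
        have h3 : (n : ℝ) * t * g 1 - g 1 ≤ k * g 1 := by nlinarith
        have h4 : (n : ℝ) * (-(g 1 / n)) = - g 1 := by field_simp
        rw [h4]; nlinarith
      exact le_of_mul_le_mul_left this hnpos
    · have : (n : ℝ) * (g t - t * g 1) ≤ n * (g 1 / n) := by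
        have h3 : ((k : ℝ) + 1) * g 1 ≤ n * t * g 1 + g 1 := by nlinarith
        have h4 : (n : ℝ) * (g 1 / n) = g 1 := by field_simp
        rw [h4]; nlinarith
      exact le_of_mul_le_mul_left this hnpos
  by_contra hne
  have hd : 0 < |g t - t * g 1| := abs_pos.mpr (sub_ne_zero.mpr hne)
  obtain ⟨n, hn⟩ := exists_nat_gt (g 1 / |g t - t * g 1|)
  have hnpos : (0 : ℝ) < n := lt_of_le_of_lt (div_nonneg hg1 hd.le) hn
  have hn' : 0 < n := by exact_mod_cast hnpos
  have h5 := key n hn'
  have h6 : g 1 < n * |g t - t * g 1| := by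
    rw [div_lt_iff₀ hd] at hn
    exact hn
  have h7 : n * |g t - t * g 1| ≤ g 1 := by
    rw [le_div_iff₀ hnpos] at h5
    linarith
  linarith

/-! ### Two scalar inequalities coming from the concavity of `x ^ lam` -/

theorem scalar_support_ineq {a b r lam : ℝ} (hr : 0 < r) (hb : 0 ≤ b) (hab : r * b ≤ a)
    (h0 : 0 ≤ lam) (h1 : lam ≤ 1) :
    a + r * ((1 + 1 / r) ^ lam - 1) * b ≤ a ^ (1 - lam) * (a + b) ^ lam := by
  have ha : 0 ≤ a := le_trans (by positivity) hab
  rcases ha.eq_or_lt with ha0 | hapos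
  · have hb0 : b = 0 := by
      have : r * b ≤ 0 := by rw [ha0]; exact hab
      nlinarith
    subst hb0
    rw [← ha0]
    have : (0 : ℝ) ≤ (0 : ℝ) ^ (1 - lam) * ((0 : ℝ) + 0) ^ lam :=
      mul_nonneg (Real.rpow_nonneg le_rfl _) (Real.rpow_nonneg (by norm_num) _)
    simpa using this
  · set t := b / a with ht
    have ht0 : 0 ≤ t := div_nonneg hb hapos.le
    have htr : t * r ≤ 1 := by
      rw [ht, div_mul_eq_mul_div, div_le_one hapos]; linarith
    have hconc := (Real.concaveOn_rpow h0 h1).2 (show (1 : ℝ) ∈ Ici (0 : ℝ) by simp)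
      (show (1 + 1 / r : ℝ) ∈ Ici (0 : ℝ) by simp only [mem_Ici]; positivity)
      (show (0 : ℝ) ≤ 1 - t * r by linarith) (show (0 : ℝ) ≤ t * r by positivity)
      (show 1 - t * r + t * r = 1 by ring)
    simp only [smul_eq_mul, Real.one_rpow, mul_one] at hconc
    have e1 : 1 - t * r + t * r * (1 + 1 / r) = 1 + t := by field_simp; ring
    rw [e1] at hconc
    have e2 : a + b = a * (1 + t) := by rw [ht]; field_simp
    have e3 : a ^ (1 - lam) * (a + b) ^ lam = a * (1 + t) ^ lam := by
      rw [e2, Real.mul_rpow hapos.le (by positivity), ← mul_assoc,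
        ← Real.rpow_add hapos]
      simp
    rw [e3]
    have e4 : a + r * ((1 + 1 / r) ^ lam - 1) * b
        = a * (1 - t * r + t * r * (1 + 1 / r) ^ lam) := by
      rw [ht]; field_simp; ring
    rw [e4]
    exact mul_le_mul_of_nonneg_left hconc hapos.le

theorem scalar_volume_ineq {V g r lam : ℝ} (hV : 0 < V) (hr : 0 < r) (hVg : V ≤ 2 * r * g)
    (h0 : 0 ≤ lam) (h1 : lam ≤ 1) :
    V ^ (1 - lam) * (V + 2 * g) ^ lam ≤ V + 2 * (r * ((1 + 1 / r) ^ lam - 1)) * g := by
  have hg : 0 < g := by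
    by_contra hcon
    have hcon' : g ≤ 0 := not_lt.mp hcon
    nlinarith
  set p := 2 * g / V with hp
  have hp0 : 0 < p := by positivity
  have hrp : 1 ≤ r * p := by
    rw [hp, ← mul_div_assoc, le_div_iff₀ hV]; linarith
  have hconc := (Real.concaveOn_rpow h0 h1).2 (show (1 : ℝ) ∈ Ici (0 : ℝ) by simp)
    (show (1 + p : ℝ) ∈ Ici (0 : ℝ) by simp only [mem_Ici]; positivity)
    (show (0 : ℝ) ≤ 1 - 1 / (r * p) by
      rw [sub_nonneg, div_le_one (by positivity)]; exact hrp)
    (show (0 : ℝ) ≤ 1 / (r * p) by positivity)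
    (show 1 - 1 / (r * p) + 1 / (r * p) = 1 by ring)
  simp only [smul_eq_mul, Real.one_rpow, mul_one] at hconc
  have e1 : 1 - 1 / (r * p) + 1 / (r * p) * (1 + p) = 1 + 1 / r := by field_simp; ring
  rw [e1] at hconc
  have e2 : V + 2 * g = V * (1 + p) := by rw [hp]; field_simp
  have e3 : V ^ (1 - lam) * (V + 2 * g) ^ lam = V * (1 + p) ^ lam := by
    rw [e2, Real.mul_rpow hV.le (by positivity), ← mul_assoc, ← Real.rpow_add hV]
    simp
  rw [e3]
  have e4 : V + 2 * (r * ((1 + 1 / r) ^ lam - 1)) * g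
      = V * (1 + r * p * ((1 + 1 / r) ^ lam - 1)) := by
    rw [hp]; field_simp
  rw [e4]
  apply mul_le_mul_of_nonneg_left _ hV.le
  have hrp0 : 0 < r * p := by positivity
  have h8 : (1 + p) ^ lam - 1 ≤ r * p * ((1 + 1 / r) ^ lam - 1) := by
    have h9 : 1 / (r * p) * ((1 + p) ^ lam - 1) ≤ (1 + 1 / r) ^ lam - 1 := by linarith
    have h10 := mul_le_mul_of_nonneg_left h9 hrp0.le
    have h11 : r * p * (1 / (r * p) * ((1 + p) ^ lam - 1)) = (1 + p) ^ lam - 1 := by
      field_simp
    linarith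
  linarith

/-! ### The bodies `K + [0, t] v` -/

section Slab

variable {E : Type*} [NormedAddCommGroup E] [InnerProductSpace ℝ E]

/-- `slab K v t` is the Minkowski sum `K + [0, t] v`. -/
def slab (K : Set E) (v : E) (t : ℝ) : Set E :=
  K + (fun s : ℝ => s • v) '' Icc 0 t

theorem mem_slab {K : Set E} {v : E} {t : ℝ} {x : E} :
    x ∈ slab K v t ↔ ∃ k ∈ K, ∃ s : ℝ, 0 ≤ s ∧ s ≤ t ∧ k + s • v = x := by
  constructor
  · rintro ⟨k, hk, _, ⟨s, hs, rfl⟩, rfl⟩
    exact ⟨k, hk, s, hs.1, hs.2, rfl⟩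
  · rintro ⟨k, hk, s, hs0, hst, rfl⟩
    exact ⟨k, hk, _, ⟨s, ⟨hs0, hst⟩, rfl⟩, rfl⟩

theorem slab_zero (K : Set E) (v : E) : slab K v 0 = K := by
  ext x
  rw [mem_slab]
  constructor
  · rintro ⟨k, hk, s, hs0, hs1, rfl⟩
    have : s = 0 := le_antisymm hs1 hs0
    subst this
    simpa using hk
  · intro hx
    exact ⟨x, hx, 0, le_rfl, le_rfl, by simp⟩

theorem slab_mono (K : Set E) (v : E) {s t : ℝ} (hst : s ≤ t) : slab K v s ⊆ slab K v t := by
  intro x hx
  rw [mem_slab] at hx ⊢
  obtain ⟨k, hk, a, ha0, ha1, rfl⟩ := hx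
  exact ⟨k, hk, a, ha0, ha1.trans hst, rfl⟩

theorem isCompact_slab {K : Set E} (hK : IsCompact K) (v : E) (t : ℝ) :
    IsCompact (slab K v t) :=
  hK.add (isCompact_Icc.image (by fun_prop))

theorem slab_union {K : Set E} (v : E) {s t : ℝ} (hs : 0 ≤ s) (ht : 0 ≤ t) :
    slab K v (t + s) = slab K v t ∪ (fun x : E => t • v + x) '' slab K v s := by
  ext x
  constructor
  · intro hx
    rw [mem_slab] at hx
    obtain ⟨k, hk, a, ha0, ha1, rfl⟩ := hx
    rcases le_or_gt a t with hat | hat
    · left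
      exact mem_slab.2 ⟨k, hk, a, ha0, hat, rfl⟩
    · right
      refine ⟨k + (a - t) • v, mem_slab.2 ⟨k, hk, a - t, by linarith, by linarith, rfl⟩, ?_⟩
      simp only [sub_smul]
      abel
  · rintro (hx | ⟨y, hy, rfl⟩)
    · exact slab_mono K v (by linarith) hx
    · rw [mem_slab] at hy ⊢
      obtain ⟨k, hk, a, ha0, ha1, rfl⟩ := hy
      refine ⟨k, hk, t + a, by linarith, by linarith, ?_⟩
      simp only [add_smul]
      abel

theorem slab_inter {K : Set E} (hK : Convex ℝ K) (v : E) {s t : ℝ} (hs : 0 ≤ s) (ht : 0 ≤ t) :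
    slab K v t ∩ (fun x : E => t • v + x) '' slab K v s = (fun x : E => t • v + x) '' K := by
  ext x
  constructor
  · rintro ⟨hx1, ⟨y, hy, rfl⟩⟩
    refine ⟨y, ?_, rfl⟩
    rw [mem_slab] at hx1 hy
    obtain ⟨k, hk, a, ha0, ha1, hka⟩ := hx1
    obtain ⟨k', hk', b, hb0, hb1, rfl⟩ := hy
    -- `k' + b v = k - (t - a) v`
    have hk_eq : k = k' + (b + (t - a)) • v := by
      have hka' : k + a • v = t • v + (k' + b • v) := hka
      have h1 : k = t • v + (k' + b • v) - a • v := by rw [← hka']; abel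
      rw [h1]
      simp only [add_smul, sub_smul]
      abel
    rcases (add_nonneg hb0 (sub_nonneg.2 ha1)).eq_or_lt with hz | hpos
    · have hb : b = 0 := by linarith
      rw [hb]
      simpa using hk'
    · have hcomb : k' + b • v
          = ((t - a) / (b + (t - a))) • k' + (b / (b + (t - a))) • k := by
        rw [hk_eq, smul_add, smul_smul]
        have e1 : (t - a) / (b + (t - a)) + b / (b + (t - a)) = 1 := by
          field_simp; ring
        have e2 : b / (b + (t - a)) * (b + (t - a)) = b := by field_simp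
        rw [e2, ← add_assoc, ← add_smul, e1, one_smul]
      rw [hcomb]
      exact hK hk' hk (div_nonneg (sub_nonneg.2 ha1) hpos.le) (div_nonneg hb0 hpos.le)
        (by field_simp; ring)
  · rintro ⟨k, hk, rfl⟩
    refine ⟨mem_slab.2 ⟨k, hk, t, ht, le_rfl, add_comm _ _⟩, k, ?_, rfl⟩
    exact mem_slab.2 ⟨k, hk, 0, le_rfl, hs, by simp⟩

theorem add_segment_eq (K : Set E) (v : E) :
    K + segment ℝ (-v) v = (fun x : E => -v + x) '' slab K v 2 := by
  ext x
  constructor
  · rintro ⟨k, hk, y, hy, rfl⟩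
    obtain ⟨a, b, ha, hb, hab, rfl⟩ := hy
    refine ⟨k + (2 * b) • v, mem_slab.2 ⟨k, hk, 2 * b, by linarith, by linarith, rfl⟩, ?_⟩
    have ha' : a = 1 - b := by linarith
    subst ha'
    show -v + (k + (2 * b) • v) = k + ((1 - b) • (-v) + b • v)
    module
  · rintro ⟨y, hy, rfl⟩
    obtain ⟨k, hk, s, hs0, hs2, rfl⟩ := mem_slab.1 hy
    refine ⟨k, hk, (s - 1) • v, ⟨1 - s / 2, s / 2, by linarith, by linarith, by ring, ?_⟩, ?_⟩
    · module
    · show k + (s - 1) • v = -v + (k + s • v)
      module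

end Slab

/-! ### Volumes of the bodies `K + [0, t] v` -/

section Volume

theorem measure_translate {E : Type*} [NormedAddCommGroup E] [MeasurableSpace E] [BorelSpace E]
    (μ : Measure E) [μ.IsAddHaarMeasure] (a : E) (S : Set E) :
    μ ((fun x : E => a + x) '' S) = μ S := by
  rw [Set.image_add_left]
  exact measure_preimage_add μ (-a) S

variable {E : Type*} [NormedAddCommGroup E] [InnerProductSpace ℝ E]
  [MeasurableSpace E] [BorelSpace E] (μ : Measure E) [μ.IsAddHaarMeasure]

theorem measure_slab_add {K : Set E} (hKc : Convex ℝ K) (hK : IsCompact K) (v : E) {s t : ℝ}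
    (hs : 0 ≤ s) (ht : 0 ≤ t) :
    μ (slab K v (t + s)) + μ K = μ (slab K v t) + μ (slab K v s) := by
  have hmeas : MeasurableSet ((fun x : E => t • v + x) '' slab K v s) :=
    ((isCompact_slab hK v s).image (by fun_prop)).measurableSet
  have h := measure_union_add_inter (μ := μ) (slab K v t) hmeas
  rw [← slab_union v hs ht, slab_inter hKc v hs ht, measure_translate, measure_translate] at h
  exact h

theorem measure_slab_eq {K : Set E} (hKc : Convex ℝ K) (hK : IsCompact K) (v : E) {t : ℝ}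
    (ht : 0 ≤ t) :
    μ (slab K v t)
      = ENNReal.ofReal ((μ K).toReal + t * ((μ (slab K v 1)).toReal - (μ K).toReal)) := by
  have hfin : ∀ s, μ (slab K v s) ≠ ⊤ := fun s => (isCompact_slab hK v s).measure_lt_top.ne
  have hKfin : μ K ≠ ⊤ := hK.measure_lt_top.ne
  have hadd : ∀ s t : ℝ, 0 ≤ s → 0 ≤ t →
      (μ (slab K v (s + t))).toReal - (μ K).toReal
        = ((μ (slab K v s)).toReal - (μ K).toReal)
          + ((μ (slab K v t)).toReal - (μ K).toReal) := by
    intro s t hs ht
    have h := measure_slab_add μ hKc hK v (s := t) (t := s) ht hs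
    have h' := congrArg ENNReal.toReal h
    rw [ENNReal.toReal_add (hfin _) hKfin, ENNReal.toReal_add (hfin _) (hfin _)] at h'
    linarith
  have hmono : ∀ s t : ℝ, 0 ≤ s → s ≤ t →
      (μ (slab K v s)).toReal - (μ K).toReal ≤ (μ (slab K v t)).toReal - (μ K).toReal := by
    intro s t _ hst
    have := ENNReal.toReal_mono (hfin t) (measure_mono (μ := μ) (slab_mono K v hst))
    linarith
  have hlin := additive_mono_linear
    (fun s => (μ (slab K v s)).toReal - (μ K).toReal) hadd hmono t ht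
  have h3 : (μ (slab K v t)).toReal
      = (μ K).toReal + t * ((μ (slab K v 1)).toReal - (μ K).toReal) := by
    linarith
  rw [← h3, ENNReal.ofReal_toReal (hfin t)]

theorem measure_slab_double [FiniteDimensional ℝ E] {K : Set E} (hKc : Convex ℝ K)
    (hK : IsCompact K) (hsymm : ∀ x ∈ K, -x ∈ K) (v : E) {r : ℝ} (hr : 0 ≤ r)
    (hrI : r • v ∉ interior K) :
    2 * μ K ≤ μ (slab K v (2 * r)) := by
  have hsub : K ∪ (fun x : E => (2 * r) • v + x) '' K ⊆ slab K v (2 * r) := by
    rintro x (hx | ⟨k, hk, rfl⟩)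
    · exact mem_slab.2 ⟨x, hx, 0, le_rfl, by linarith, by simp⟩
    · exact mem_slab.2 ⟨k, hk, 2 * r, by linarith, le_rfl, add_comm _ _⟩
  have hmeas : MeasurableSet ((fun x : E => (2 * r) • v + x) '' K) :=
    (hK.image (by fun_prop)).measurableSet
  have hnull : μ (K ∩ (fun x : E => (2 * r) • v + x) '' K) = 0 := by
    apply measure_mono_null _ (hKc.addHaar_frontier μ)
    rintro x ⟨hx, ⟨k, hk, rfl⟩⟩
    refine ⟨subset_closure hx, fun hint => hrI ?_⟩
    have e : r • v = (1 / 2 : ℝ) • ((2 * r) • v + k) + (1 / 2 : ℝ) • (-k) := by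
      module
    rw [e]
    exact hKc.combo_interior_self_mem_interior hint (hsymm k hk) (by norm_num) (by norm_num)
      (by norm_num)
  have h := measure_union_add_inter (μ := μ) K hmeas
  rw [hnull, add_zero, measure_translate] at h
  calc 2 * μ K = μ K + μ K := two_mul _
    _ = μ (K ∪ (fun x : E => (2 * r) • v + x) '' K) := h.symm
    _ ≤ μ (slab K v (2 * r)) := measure_mono hsub

end Volume

/-! ### Support functions and the containment in the logarithmic combination -/

section Support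

variable {E : Type*} [NormedAddCommGroup E] [InnerProductSpace ℝ E]

theorem bddAbove_inner_image {K : Set E} (hK : IsCompact K) (u : E) :
    BddAbove ((fun x : E => inner ℝ x u) '' K) :=
  (hK.image (by fun_prop)).bddAbove

theorem inner_le_supportFn {K : Set E} (hK : IsCompact K) {x : E} (hx : x ∈ K) (u : E) :
    inner ℝ x u ≤ supportFn K u :=
  le_csSup (bddAbove_inner_image hK u) (mem_image_of_mem _ hx)

theorem exists_supportFn_eq {K : Set E} (hK : IsCompact K) (hne : K.Nonempty) (u : E) :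
    ∃ k ∈ K, supportFn K u = inner ℝ k u := by
  obtain ⟨k, hk, hmax⟩ := hK.exists_isMaxOn hne (f := fun x : E => inner ℝ x u)
    (Continuous.continuousOn (by fun_prop))
  refine ⟨k, hk, le_antisymm ?_ (inner_le_supportFn hK hk u)⟩
  apply csSup_le (hne.image _)
  rintro _ ⟨y, hy, rfl⟩
  exact hmax hy

theorem isCompact_add_segment {K : Set E} (hK : IsCompact K) (v : E) :
    IsCompact (K + segment ℝ (-v) v) := by
  rw [add_segment_eq]
  exact (isCompact_slab hK v 2).image (by fun_prop)

theorem translate_slab_subset_logSum {K : Set E} (hK : IsCompact K) (hne : K.Nonempty)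
    (hsymm : ∀ x ∈ K, -x ∈ K) (v : E) {r lam c : ℝ} (hr : 0 < r) (hrK : r • v ∈ K)
    (h0 : 0 ≤ lam) (h1 : lam ≤ 1) (hc : c = r * ((1 + 1 / r) ^ lam - 1)) :
    (fun x : E => -(c • v) + x) '' slab K v (2 * c)
      ⊆ logSum lam K (K + segment ℝ (-v) v) := by
  have hc0 : 0 ≤ c := by
    have h2 : (1 : ℝ) ≤ (1 + 1 / r) ^ lam :=
      Real.one_le_rpow (by simp only [le_add_iff_nonneg_right]; positivity) h0
    rw [hc]
    exact mul_nonneg hr.le (sub_nonneg.2 h2)
  have hLcomp : IsCompact (K + segment ℝ (-v) v) := isCompact_add_segment hK v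
  rintro _ ⟨y, hy, rfl⟩
  obtain ⟨k, hk, s, hs0, hs2, rfl⟩ := mem_slab.1 hy
  intro u _
  show inner ℝ (-(c • v) + (k + s • v)) u
    ≤ supportFn K u ^ (1 - lam) * supportFn (K + segment ℝ (-v) v) u ^ lam
  have h_i : inner ℝ k u ≤ supportFn K u := inner_le_supportFn hK hk u
  have h_ii : r * |inner ℝ v u| ≤ supportFn K u := by
    have p1 := inner_le_supportFn hK hrK u
    have p2 := inner_le_supportFn hK (hsymm _ hrK) u
    rw [real_inner_smul_left] at p1
    rw [inner_neg_left, real_inner_smul_left] at p2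
    rcases abs_cases (inner ℝ v u) with ⟨h, _⟩ | ⟨h, _⟩ <;> rw [h] <;> linarith
  have h_iii : supportFn K u + |inner ℝ v u| ≤ supportFn (K + segment ℝ (-v) v) u := by
    obtain ⟨ks, hks, hks_eq⟩ := exists_supportFn_eq hK hne u
    rcases le_total 0 (inner ℝ v u) with hpos | hneg
    · have hmem : ks + v ∈ K + segment ℝ (-v) v :=
        add_mem_add hks (right_mem_segment ℝ (-v) v)
      have h3 := inner_le_supportFn hLcomp hmem u
      rw [inner_add_left] at h3
      rw [abs_of_nonneg hpos, hks_eq]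
      exact h3
    · have hmem : ks + (-v) ∈ K + segment ℝ (-v) v :=
        add_mem_add hks (left_mem_segment ℝ (-v) v)
      have h3 := inner_le_supportFn hLcomp hmem u
      rw [inner_add_left, inner_neg_left] at h3
      rw [abs_of_nonpos hneg, hks_eq]
      exact h3
  have h_iv : inner ℝ (-(c • v) + (k + s • v)) u ≤ supportFn K u + c * |inner ℝ v u| := by
    have e : inner ℝ (-(c • v) + (k + s • v)) u = inner ℝ k u + (s - c) * inner ℝ v u := by
      rw [inner_add_left, inner_add_left, inner_neg_left, real_inner_smul_left,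
        real_inner_smul_left]
      ring
    rw [e]
    have h4 : (s - c) * inner ℝ v u ≤ c * |inner ℝ v u| := by
      calc (s - c) * inner ℝ v u ≤ |(s - c) * inner ℝ v u| := le_abs_self _
        _ = |s - c| * |inner ℝ v u| := abs_mul _ _
        _ ≤ c * |inner ℝ v u| :=
          mul_le_mul_of_nonneg_right (abs_le.2 ⟨by linarith, by linarith⟩) (abs_nonneg _)
    linarith
  have h_v : supportFn K u + c * |inner ℝ v u|
      ≤ supportFn K u ^ (1 - lam) * (supportFn K u + |inner ℝ v u|) ^ lam := by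
    rw [hc]
    exact scalar_support_ineq hr (abs_nonneg (inner ℝ v u)) h_ii h0 h1
  have ha0 : 0 ≤ supportFn K u := le_trans (mul_nonneg hr.le (abs_nonneg _)) h_ii
  have h_vi : supportFn K u ^ (1 - lam) * (supportFn K u + |inner ℝ v u|) ^ lam
      ≤ supportFn K u ^ (1 - lam) * supportFn (K + segment ℝ (-v) v) u ^ lam :=
    mul_le_mul_of_nonneg_left
      (Real.rpow_le_rpow (add_nonneg ha0 (abs_nonneg _)) h_iii h0) (Real.rpow_nonneg ha0 _)
  linarith

theorem subset_logSum_self {K : Set E} (hK : IsCompact K) (h0K : (0 : E) ∈ K) {lam : ℝ}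
    (h0 : 0 ≤ lam) (h1 : lam ≤ 1) : K ⊆ logSum lam K K := by
  intro x hx u _
  show inner ℝ x u ≤ supportFn K u ^ (1 - lam) * supportFn K u ^ lam
  have hnn : 0 ≤ supportFn K u := by
    have := inner_le_supportFn hK h0K u
    simpa using this
  rw [← Real.rpow_add_of_nonneg hnn (by linarith) h0]
  simpa using inner_le_supportFn hK hx u

end Support

/-! ### The main theorem -/

theorem logBM_add_segment {E : Type*} [NormedAddCommGroup E] [InnerProductSpace ℝ E]
    [FiniteDimensional ℝ E] [MeasurableSpace E] [BorelSpace E]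
    (μ : Measure E) [μ.IsAddHaarMeasure]
    (K : Set E) (hKc : Convex ℝ K) (hK : IsCompact K) (hKint : (interior K).Nonempty)
    (hsymm : ∀ x ∈ K, -x ∈ K) (v : E) (lam : ℝ) (h0 : 0 ≤ lam) (h1 : lam ≤ 1) :
    μ K ^ (1 - lam) * μ (K + segment ℝ (-v) v) ^ lam
      ≤ μ (logSum lam K (K + segment ℝ (-v) v)) := by
  have hne : K.Nonempty := hKint.mono interior_subset
  have hKfin : μ K ≠ ⊤ := hK.measure_lt_top.ne
  have hKpos : μ K ≠ 0 := (Measure.measure_pos_of_nonempty_interior μ hKint).ne'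
  have h0int : (0 : E) ∈ interior K := by
    obtain ⟨x, hx⟩ := hKint
    have hneg : -x ∈ interior K := by
      have hopen : IsOpen (Neg.neg ⁻¹' interior K) := isOpen_interior.preimage continuous_neg
      have hsub : Neg.neg ⁻¹' interior K ⊆ K := fun y hy => by
        simpa using hsymm _ (interior_subset hy)
      exact interior_maximal hsub hopen (by simpa using hx)
    have e : (0 : E) = (1 / 2 : ℝ) • x + (1 / 2 : ℝ) • (-x) := by module
    rw [e]
    exact hKc.combo_interior_self_mem_interior hx (interior_subset hneg) (by norm_num)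
      (by norm_num) (by norm_num)
  have hnhds : K ∈ 𝓝 (0 : E) := mem_interior_iff_mem_nhds.1 h0int
  by_cases hv : v = 0
  · subst hv
    rw [neg_zero, segment_same, Set.singleton_zero, add_zero,
      ← ENNReal.rpow_add_of_nonneg _ _ (by linarith) h0]
    simp only [sub_add_cancel, ENNReal.rpow_one]
    exact measure_mono (subset_logSum_self hK (interior_subset h0int) h0 h1)
  · have hb : Bornology.IsVonNBounded ℝ K := (NormedSpace.isVonNBounded_iff ℝ).2 hK.isBounded
    have habs : Absorbent ℝ K := absorbent_nhds_zero hnhds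
    have hρ : 0 < gauge K v := (gauge_pos habs hb).2 hv
    obtain ⟨r, hr_def⟩ : ∃ r : ℝ, r = (gauge K v)⁻¹ := ⟨_, rfl⟩
    have hr : 0 < r := by rw [hr_def]; exact inv_pos.2 hρ
    have hg1 : gauge K (r • v) = 1 := by
      rw [gauge_smul_of_nonneg hr.le, smul_eq_mul, hr_def, inv_mul_cancel₀ hρ.ne']
    have hrK : r • v ∈ K := by
      have h2 : r • v ∈ closure K := (gauge_le_one_iff_mem_closure hKc hnhds).1 hg1.le
      rwa [hK.isClosed.closure_eq] at h2
    have hrI : r • v ∉ interior K := fun h => by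
      have h2 := (gauge_lt_one_iff_mem_interior hKc hnhds).2 h
      linarith
    obtain ⟨c, hc⟩ : ∃ c : ℝ, c = r * ((1 + 1 / r) ^ lam - 1) := ⟨_, rfl⟩
    have hc0 : 0 ≤ c := by
      have h2 : (1 : ℝ) ≤ (1 + 1 / r) ^ lam :=
        Real.one_le_rpow (by simp only [le_add_iff_nonneg_right]; positivity) h0
      rw [hc]
      exact mul_nonneg hr.le (sub_nonneg.2 h2)
    obtain ⟨V, hVdef⟩ : ∃ V : ℝ, V = (μ K).toReal := ⟨_, rfl⟩
    obtain ⟨γ, hγdef⟩ : ∃ γ : ℝ, γ = (μ (slab K v 1)).toReal - (μ K).toReal := ⟨_, rfl⟩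
    have hVpos : 0 < V := by rw [hVdef]; exact ENNReal.toReal_pos hKpos hKfin
    have hKV : μ K = ENNReal.ofReal V := by rw [hVdef, ENNReal.ofReal_toReal hKfin]
    have hslab : ∀ t, 0 ≤ t → μ (slab K v t) = ENNReal.ofReal (V + t * γ) := by
      intro t ht
      rw [hVdef, hγdef]
      exact measure_slab_eq μ hKc hK v ht
    have hγ0 : 0 ≤ γ := by
      have h2 := ENNReal.toReal_mono ((isCompact_slab hK v 1).measure_lt_top.ne)
        (measure_mono (μ := μ) (slab_mono K v zero_le_one))
      rw [slab_zero] at h2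
      rw [hγdef]
      linarith
    have hdouble : V ≤ 2 * r * γ := by
      have h := measure_slab_double μ hKc hK hsymm v hr.le hrI
      have h' := ENNReal.toReal_mono ((isCompact_slab hK v (2 * r)).measure_lt_top.ne) h
      rw [ENNReal.toReal_mul, hslab _ (by positivity), ENNReal.toReal_ofReal (by positivity),
        ENNReal.toReal_ofNat, ← hVdef] at h'
      linarith
    have hL : μ (K + segment ℝ (-v) v) = ENNReal.ofReal (V + 2 * γ) := by
      rw [add_segment_eq, measure_translate, hslab 2 (by norm_num)]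
    have hM : μ ((fun x : E => -(c • v) + x) '' slab K v (2 * c))
        = ENNReal.ofReal (V + 2 * c * γ) := by
      rw [measure_translate, hslab _ (by positivity)]
    have hsub := translate_slab_subset_logSum hK hne hsymm v hr hrK h0 h1 hc
    have hfinal : V ^ (1 - lam) * (V + 2 * γ) ^ lam ≤ V + 2 * c * γ := by
      rw [hc]
      exact scalar_volume_ineq hVpos hr hdouble h0 h1
    calc μ K ^ (1 - lam) * μ (K + segment ℝ (-v) v) ^ lam
        = ENNReal.ofReal (V ^ (1 - lam) * (V + 2 * γ) ^ lam) := by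
          rw [hL, hKV, ENNReal.ofReal_rpow_of_pos hVpos,
            ENNReal.ofReal_rpow_of_pos (by positivity),
            ← ENNReal.ofReal_mul (by positivity)]
      _ ≤ ENNReal.ofReal (V + 2 * c * γ) := ENNReal.ofReal_le_ofReal hfinal
      _ = μ ((fun x : E => -(c • v) + x) '' slab K v (2 * c)) := hM.symm
      _ ≤ μ (logSum lam K (K + segment ℝ (-v) v)) := measure_mono hsub

end Vale.Agent.Lib.P227
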